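import Vale.Agent.P232.Symm.CubeTools

/-! # P232: reduction on the torus to nonincreasing functions in the cube -/

open MeasureTheory Filter Set Function
open scoped Topology NNReal

namespace Vale.Agent.P232.Symm

/-- The integer translations. -/
def lattice : Set R3 := range fun (z : Fin 3 → ℤ) (i : Fin 3) => (z i : ℝ)

theorem inv_lattice_iff {G : R3 → ℝ} : Inv lattice G ↔ IsPeriodic G :=
  ⟨fun h x k => h x _ ⟨k, rfl⟩, fun h x k hk => by obtain ⟨z, rfl⟩ := hk; exact h x z⟩

/-- The weight on the torus. -/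
noncomputable def torusWeight (x : R3) : ℝ := ∑ k, Real.cos (2 * Real.pi * x k)

theorem torusWeight_mirror (i : Fin 3) (a : ℝ) (x : R3) : torusWeight (mirror i a x) - torusWeight x =
    Real.cos (2 * Real.pi * (2 * a - x i)) - Real.cos (2 * Real.pi * x i) := by
  simp only [torusWeight, ← Finset.sum_sub_distrib]
  rw [Finset.sum_eq_single i (fun k _ hk => by simp [mirror, hk]) (by simp)]
  simp [mirror]

theorem sys_mirror : Sys lattice torusWeight
    {σ | ∃ (i : Fin 3) (a : ℝ), a ∈ Ioo (-(1 / 2) : ℝ) (1 / 2) ∧ a ≠ 0 ∧ σ = mirror i a} fun _ => True where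
  refl σ hσ := by obtain ⟨i, a, -, -, rfl⟩ := hσ; exact mirror_refl i a
  wc := by unfold torusWeight; fun_prop
  wT x k hk := by
    obtain ⟨z, rfl⟩ := hk
    refine Finset.sum_congr rfl fun i _ => ?_
    rw [Pi.add_apply, mul_add, mul_comm (2 * Real.pi) (z i : ℝ)]
    exact Real.cos_add_int_mul_two_pi _ _
  inv σ hσ G hG := by
    obtain ⟨i, a, -, -, rfl⟩ := hσ
    rintro x - ⟨z, rfl⟩
    rw [inv_lattice_iff] at hG
    show G (mirror i a (x + fun j => (z j : ℝ))) = G (mirror i a x)
    rw [show mirror i a (x + fun j => (z j : ℝ)) =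
        mirror i a x + fun j => ((update z i (-z i) j : ℤ) : ℝ) by
      ext j
      rcases eq_or_ne j i with rfl | h
      · simp [mirror]; ring
      · simp [mirror, h]]
    exact hG _ _
  fix σ hσ h hh x hx := by
    obtain ⟨i, a, ha, ha0, rfl⟩ := hσ
    rw [inv_lattice_iff] at hh
    have e := torusWeight_mirror i a x
    rw [hx, sub_self] at e
    obtain ⟨k, hk | hk⟩ := Real.cos_eq_cos_iff.1 (sub_eq_zero.1 e.symm)
    · have hk' : x i = k + (2 * a - x i) :=
        mul_left_cancel₀ (mul_ne_zero two_ne_zero Real.pi_ne_zero) (by linarith)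
      rw [show mirror i a x = x + fun j => ((update 0 i (-k) : Fin 3 → ℤ) j : ℝ) by
        ext j
        rcases eq_or_ne j i with rfl | h
        · simp [mirror]; linarith
        · simp [mirror, h]]
      exact hh _ _
    · have hk' : x i = k - (2 * a - x i) :=
        mul_left_cancel₀ (mul_ne_zero two_ne_zero Real.pi_ne_zero) (by linarith)
      have h1 : (k : ℝ) < 1 := by linarith [ha.2]
      have h2 : (-1 : ℝ) < k := by linarith [ha.1]
      norm_cast at h1 h2
      obtain rfl : k = 0 := by omega
      exact absurd (show a = 0 by push_cast at hk'; linarith) ha0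
  int σ hσ G hG hi hi' := by
    obtain ⟨i, a, -, -, rfl⟩ := hσ
    exact integral_mirror i a (fun x => (inv_lattice_iff.1 hG).shift i x) hi hi'
  qlim _ _ _ _ := trivial
  qpol _ _ _ _ _ := trivial

theorem cos_lt_cos {u v : ℝ} (hu : 0 ≤ u) (huv : u < v) (hv : v ≤ 1 / 2) :
    Real.cos (2 * Real.pi * v) < Real.cos (2 * Real.pi * u) :=
  Real.cos_lt_cos_of_nonneg_of_le_pi (by positivity) (by nlinarith [Real.pi_pos])
    (mul_lt_mul_of_pos_left huv (by positivity))

theorem update_mem_cube {x : R3} (hx : x ∈ cube) (i : Fin 3) {t : ℝ} (ht : t ∈ Icc (0 : ℝ) 1) :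
    update x i t ∈ cube := by
  constructor <;> intro j <;> rcases eq_or_ne j i with rfl | h
  · simpa using ht.1
  · simpa [h] using hx.1 j
  · simpa using ht.2
  · simpa [h] using hx.2 j

variable {h : R3 → ℝ}

theorem periodic_update (hp : IsPeriodic h) (i : Fin 3) (x : R3) :
    Periodic (fun t => h (update x i t)) 1 := fun t => by
  show h (update x i (t + 1)) = h (update x i t)
  rw [show update x i (t + 1) = update x i t + Pi.single i 1 by
    ext j; rcases eq_or_ne j i with rfl | h <;> simp [*]]
  exact hp.shift i _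

/-- The shape of a function fixed by all the polarisations of the torus. -/
theorem shape (hc : Continuous h) (hp : IsPeriodic h) (i : Fin 3)
    (hfix : ∀ a ∈ Ioo (-(1 / 2) : ℝ) (1 / 2), a ≠ 0 → ∀ x ∈ cube,
      torusWeight (mirror i a x) < torusWeight x → h (mirror i a x) ≤ h x)
    {x : R3} (hx : x ∈ cube) :
    AntitoneOn (fun t => h (update x i t)) (Icc 0 (1 / 2)) ∧
      ∀ t ∈ Icc (0 : ℝ) (1 / 2), h (update x i (1 - t)) = h (update x i t) := by
  set q : ℝ → ℝ := fun t => h (update x i t) with hq
  have hqc : Continuous q := hc.comp (continuous_const.update i continuous_id)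
  have hper : Periodic q 1 := periodic_update hp i x
  have cmp : ∀ a ∈ Ioo (-(1 / 2) : ℝ) (1 / 2), a ≠ 0 → ∀ t ∈ Icc (0 : ℝ) 1,
      Real.cos (2 * Real.pi * (2 * a - t)) < Real.cos (2 * Real.pi * t) → q (2 * a - t) ≤ q t := by
    intro a ha ha0 t ht hlt
    have e : mirror i a (update x i t) = update x i (2 * a - t) := by simp [mirror]
    have hh := hfix a ha ha0 _ (update_mem_cube hx i ht) (sub_neg.1 (by
      rw [torusWeight_mirror, update_self]; exact sub_neg.2 hlt))
    rw [e] at hh
    exact hh
  refine ⟨fun u hu v hv huv => ?_, ?_⟩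
  · rcases huv.eq_or_lt with rfl | hlt
    · exact le_rfl
    have hh := cmp ((u + v) / 2) ⟨by linarith [hu.1], by linarith [hv.2]⟩
      (ne_of_gt (by linarith [hu.1])) u ⟨hu.1, by linarith [hu.2]⟩
      (by rw [show 2 * ((u + v) / 2) - u = v by ring]; exact cos_lt_cos hu.1 hlt hv.2)
    rwa [show 2 * ((u + v) / 2) - u = v by ring] at hh
  · have hEq : EqOn (fun t => q (1 - t)) q (Ioo 0 (1 / 2)) := by
      intro u hu
      show q (1 - u) = q u
      refine le_antisymm ?_ ?_
      · have hlim : Tendsto (fun b : ℝ => q (1 - (u + 2 * b))) (𝓝[>] 0) (𝓝 (q (1 - u))) := by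
          refine ((hqc.comp (by fun_prop : Continuous fun b : ℝ => 1 - (u + 2 * b))).tendsto' 0 _ ?_).mono_left
            nhdsWithin_le_nhds
          simp
        refine le_of_tendsto hlim ?_
        filter_upwards [Ioo_mem_nhdsGT (show (0 : ℝ) < (1 / 2 - u) / 2 by linarith [hu.2])] with b hb
        have hh := cmp (-b) ⟨by linarith [hb.2, hu.1], by linarith [hb.1]⟩ (by linarith [hb.1]) u
          ⟨hu.1.le, by linarith [hu.2]⟩ (by
            rw [show 2 * Real.pi * (2 * -b - u) = -(2 * Real.pi * (u + 2 * b)) by ring, Real.cos_neg]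
            exact cos_lt_cos hu.1.le (by linarith [hb.1]) (by linarith [hb.2]))
        rw [← hper (2 * -b - u), show 2 * -b - u + 1 = 1 - (u + 2 * b) by ring] at hh
        exact hh
      · have hlim : Tendsto (fun b : ℝ => q (u + 2 * b)) (𝓝[>] 0) (𝓝 (q u)) := by
          refine ((hqc.comp (by fun_prop : Continuous fun b : ℝ => u + 2 * b)).tendsto' 0 _ ?_).mono_left
            nhdsWithin_le_nhds
          simp
        refine le_of_tendsto hlim ?_
        filter_upwards [Ioo_mem_nhdsGT (show (0 : ℝ) < (1 / 2 - u) / 2 by linarith [hu.2])] with b hb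
        have hh := cmp b ⟨by linarith [hb.1], by linarith [hb.2, hu.1]⟩ hb.1.ne' (1 - u)
          ⟨by linarith [hu.2], by linarith [hu.1]⟩ (by
            rw [show 2 * Real.pi * (2 * b - (1 - u)) = 2 * Real.pi * (u + 2 * b) - 2 * Real.pi by ring,
              Real.cos_sub_two_pi, show 2 * Real.pi * (1 - u) = 2 * Real.pi - 2 * Real.pi * u by ring,
              Real.cos_two_pi_sub]
            exact cos_lt_cos hu.1.le (by linarith [hb.1]) (by linarith [hb.2]))
        rw [← hper (2 * b - (1 - u)), show 2 * b - (1 - u) + 1 = u + 2 * b by ring] at hh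
        exact hh
    have hcl := hEq.closure (hqc.comp (by fun_prop : Continuous fun t : ℝ => 1 - t)) hqc
    rw [closure_Ioo (by norm_num : (0 : ℝ) ≠ 1 / 2)] at hcl
    exact fun t ht => hcl ht

theorem exists_sub_mem_cube (x : R3) :
    ∃ k : Fin 3 → ℤ, (fun i => x i - k i) ∈ cube :=
  ⟨fun i => ⌊x i⌋, ⟨fun i => sub_nonneg.2 (Int.floor_le _), fun i => by
    simp only [Pi.one_apply]; linarith [Int.lt_floor_add_one (x i)]⟩⟩

/-- Periodic functions equal on the cube are equal. -/
theorem eq_of_eqOn_cube {G H : R3 → ℝ} (hG : IsPeriodic G) (hH : IsPeriodic H)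
    (h : ∀ x ∈ cube, G x = H x) : G = H := by
  funext x
  obtain ⟨k, hk⟩ := exists_sub_mem_cube x
  have e : ((fun i => x i - k i) + fun i => (k i : ℝ)) = x := by ext i; simp
  rw [← e, hG, hH, h _ hk]

theorem mirror_update {i j : Fin 3} (hij : j ≠ i) (a s : ℝ) (x : R3) :
    update (mirror i a x) j s = mirror i a (update x j s) := by
  simp only [mirror, update_of_ne hij.symm]
  exact update_comm hij s (2 * a - x i) x |>.symm

/-- The integral of a function with all the symmetries is that of its dilation. -/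
theorem integral_half {G : R3 → ℝ} (hsym : ∀ i x, G (mirror i (1 / 2) x) = G x) (hm : Measurable G)
    {C : ℝ} (hb : ∀ x, |G x| ≤ C) :
    ∫ x in cube, G ((1 / 2 : ℝ) • x) = ∫ x in cube, G x := by
  have hu : ∀ i : Fin 3, Measurable fun x : R3 => update x i (x i / 2) := fun i =>
    measurable_pi_lambda _ fun k => by
      rcases eq_or_ne k i with rfl | h
      · simp only [update_self]; fun_prop
      · simp only [update_of_ne h]; fun_prop
  set G1 := fun x : R3 => G (update x 0 (x 0 / 2))
  set G2 := fun x : R3 => G1 (update x 1 (x 1 / 2))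
  have s1 : ∀ i : Fin 3, i ≠ 0 → ∀ x, G1 (mirror i (1 / 2) x) = G1 x := fun i hi x => by
    simp only [G1]
    rw [show mirror i (1 / 2) x 0 = x 0 by simp [mirror, hi.symm], mirror_update hi.symm, hsym]
  have s2 : ∀ x, G2 (mirror 2 (1 / 2) x) = G2 x := fun x => by
    simp only [G2]
    rw [show mirror 2 (1 / 2) x 1 = x 1 by simp [mirror], mirror_update (by decide), s1 2 (by decide)]
  rw [← integral_fold 0 (fun x _ => hsym 0 x) hm hb,
    ← integral_fold 1 (fun x _ => s1 1 (by decide) x) (hm.comp (hu 0)) (fun x => hb _),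
    ← integral_fold 2 (fun x _ => s2 x) ((hm.comp (hu 0)).comp (hu 1)) (fun x => hb _)]
  refine integral_congr_ae (Eventually.of_forall fun x => ?_)
  simp only [G2, G1]
  congr 1
  ext j
  fin_cases j <;> simp <;> ring

/-- The restriction to the small cube, dilated, and extended by clamping. -/
noncomputable def small (h : R3 → ℝ) (x : R3) : ℝ :=
  h fun i => (1 / 2 : ℝ) * max 0 (min 1 (x i))

theorem small_eq {x : R3} (hx : x ∈ cube) : small h x = h ((1 / 2 : ℝ) • x) := by
  unfold small
  congr 1; ext i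
  rw [min_eq_right (show x i ≤ 1 from hx.2 i), max_eq_right (show 0 ≤ x i from hx.1 i), Pi.smul_apply, smul_eq_mul]

theorem lipschitzWith_small {L : ℝ≥0} (hh : LipschitzWith L h) : LipschitzWith L (small h) := by
  refine LipschitzWith.of_dist_le_mul fun x y => (hh.dist_le_mul _ _).trans
    (mul_le_mul_of_nonneg_left ((dist_pi_le_iff dist_nonneg).2 fun i => ?_) L.coe_nonneg)
  refine le_trans ?_ (dist_le_pi_dist x y i)
  rw [Real.dist_eq, Real.dist_eq, ← mul_sub, abs_mul, abs_of_pos (by norm_num : (0 : ℝ) < 1 / 2)]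
  refine le_trans (mul_le_of_le_one_left (abs_nonneg _) (by norm_num)) ?_
  exact (abs_max_sub_max_le_max _ _ _ _).trans (max_le (by simp)
    ((abs_min_sub_min_le_max _ _ _ _).trans (max_le (by simp) le_rfl)))

theorem gradNorm_small {x : R3} (hx : x ∈ interior cube) :
    gradNorm (small h) x = 1 / 2 * gradNorm h ((1 / 2 : ℝ) • x) := by
  let A : R3 ≃L[ℝ] R3 := ContinuousLinearEquiv.smulLeft (Units.mk0 (1 / 2 : ℝ) (by norm_num))
  have e : small h =ᶠ[𝓝 x] fun y => h (A y + 0) := by
    filter_upwards [isOpen_interior.mem_nhds hx] with y hy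
    rw [small_eq (interior_subset hy), add_zero]; rfl
  rw [gradNorm_congr e.fderiv_eq]
  rw [gradNorm_comp A 0 (1 / 2) (Equiv.refl _) (fun _ => 1 / 2) (fun j => rfl) (fun _ => rfl) (by norm_num),
    add_zero]
  rfl

/-- Such a function is symmetric about the middle planes. -/
theorem symm_of_shape (hper : IsPeriodic h)
    (hsh : ∀ i : Fin 3, ∀ x ∈ cube, AntitoneOn (fun t => h (update x i t)) (Icc 0 (1 / 2)) ∧
      ∀ t ∈ Icc (0 : ℝ) (1 / 2), h (update x i (1 - t)) = h (update x i t)) :
    ∀ i : Fin 3, (fun x => h (mirror i (1 / 2) x)) = h := by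
  intro i
  refine eq_of_eqOn_cube (inv_lattice_iff.1 ?_) hper fun x hx => ?_
  · rintro x - ⟨z, rfl⟩
    show h (mirror i (1 / 2) (x + fun j => (z j : ℝ))) = h (mirror i (1 / 2) x)
    rw [show mirror i (1 / 2) (x + fun j => (z j : ℝ)) =
        mirror i (1 / 2) x + fun j => ((update z i (-z i) j : ℤ) : ℝ) by
      ext j
      rcases eq_or_ne j i with rfl | h
      · simp [mirror]; ring
      · simp [mirror, h]]
    exact hper _ _
  · have h1 := (hsh i x hx).2
    rcases le_total (x i) (1 / 2) with ht | ht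
    · have := h1 (x i) ⟨hx.1 i, ht⟩
      rw [update_eq_self] at this
      simpa [mirror] using this
    · have := h1 (1 - x i) ⟨sub_nonneg.2 (hx.2 i), by linarith⟩
      rw [sub_sub_cancel, update_eq_self] at this
      simpa [mirror] using this.symm

/-- The restriction to the small cube of a function decreasing in the distances is nonincreasing. -/
theorem antitone_small
    (hsh : ∀ i : Fin 3, ∀ x ∈ cube, AntitoneOn (fun t => h (update x i t)) (Icc 0 (1 / 2)) ∧
      ∀ t ∈ Icc (0 : ℝ) (1 / 2), h (update x i (1 - t)) = h (update x i t)) :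
    CubeAntitone (small h) := by
  intro a ha b hb hab
  rw [small_eq ha, small_eq hb]
  have hhalf : ∀ y ∈ cube, (1 / 2 : ℝ) • y ∈ cube ∧ ∀ i, ((1 / 2 : ℝ) • y) i ∈ Icc (0 : ℝ) (1 / 2) := by
    intro y hy
    have hb : ∀ i, 0 ≤ y i ∧ y i ≤ 1 := fun i => ⟨hy.1 i, hy.2 i⟩
    refine ⟨⟨fun i => ?_, fun i => ?_⟩, fun i => ?_⟩ <;>
      simp only [Pi.smul_apply, smul_eq_mul, Pi.zero_apply, Pi.one_apply, mem_Icc] <;>
      first | linarith [hb i] | exact ⟨by linarith [hb i], by linarith [hb i]⟩
  set p := (1 / 2 : ℝ) • a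
  set q := (1 / 2 : ℝ) • b
  have hpq : ∀ i, p i ≤ q i := fun i => by
    simp only [p, q, Pi.smul_apply, smul_eq_mul]
    exact mul_le_mul_of_nonneg_left (hab i) (by norm_num)
  have step : ∀ y ∈ cube, ∀ i, y i = p i → h (update y i (q i)) ≤ h y := fun y hy i hi => by
    have : h (update y i (q i)) ≤ h (update y i (p i)) :=
      (hsh i y hy).1 ((hhalf a ha).2 i) ((hhalf b hb).2 i) (hpq i)
    rwa [← hi, update_eq_self] at this
  have m0 := (hhalf a ha).1
  have mem : ∀ y ∈ cube, ∀ i, update y i (q i) ∈ cube := fun y hy i =>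
    update_mem_cube hy i ⟨(hhalf b hb).1.1 i, (hhalf b hb).1.2 i⟩
  have e : update (update (update p 0 (q 0)) 1 (q 1)) 2 (q 2) = q := by
    ext j; fin_cases j <;> simp
  rw [← e]
  exact ((step _ (mem _ (mem _ m0 0) 1) 2 (by simp [p])).trans
    (step _ (mem _ m0 0) 1 (by simp [p]))).trans (step _ m0 0 rfl)

/-- The energy of the restriction to the small cube. -/
theorem integral_gradNorm_small {L : ℝ≥0} (hL : LipschitzWith L h)
    (hsymm : ∀ i : Fin 3, (fun x => h (mirror i (1 / 2) x)) = h) :
    ∫ x in cube, gradNorm (small h) x = 1 / 2 * ∫ x in cube, gradNorm h x := by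
  have hcv : Convex ℝ cube := convex_Icc (0 : R3) 1
  rw [← integral_half (G := gradNorm h) (fun i x => by
    have := (mirror_refl i (1 / 2)).grad h x
    rw [hsymm i] at this
    exact this.symm) (measurable_gradNorm h) (C := 3 * L) (fun x => by
      rw [abs_of_nonneg (gradNorm_nonneg _ _)]; exact gradNorm_le hL x), ← integral_const_mul]
  refine setIntegral_congr_ae measurableSet_cube ?_
  have hnull : ∀ᵐ x : R3, x ∉ frontier cube := measure_eq_zero_iff_ae_notMem.1 (hcv.addHaar_frontier volume)
  filter_upwards [hnull] with x hx hxc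
  refine gradNorm_small ?_
  by_contra hni
  exact hx ⟨subset_closure hxc, hni⟩

/-- **Nonincreasing functions in the cube suffice on the torus.** -/
theorem funIso_of_cubeIso (H : CubeIso) : FunIso := by
  intro L f hf hp hI
  obtain ⟨h, hh, hfixed⟩ := exists_fixed sys_mirror (f := f) (L := L)
    ⟨hf, hI, inv_lattice_iff.2 hp, trivial, fun _ _ => rfl, le_rfl⟩
  have hper := inv_lattice_iff.1 hh.inv
  have hc := hh.lip.continuous
  have hsh := fun i x hx => shape (x := x) hc hper i
    (fun a ha ha0 y hy => hfixed _ ⟨i, a, ha, ha0, rfl⟩ y hy) hx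
  have hsymm := symm_of_shape hper hsh
  have hanti : CubeAntitone (small h) := antitone_small hsh
  have hlev : ∀ t, levelVol (small h) t = levelVol f t := fun t => by
    rw [← levelVol_eq hc hf.continuous hh.moment t]
    have hset : {x ∈ cube | t < small h x} = cube ∩ (fun x : R3 => (1 / 2 : ℝ) • x) ⁻¹' {x | t < h x} := by
      ext x; exact and_congr_right fun hx => by rw [small_eq hx]; rfl
    have hms : MeasurableSet {x | t < h x} := measurableSet_lt measurable_const hc.measurable
    have hms' := hms.preimage (by fun_prop : Measurable fun x : R3 => (1 / 2 : ℝ) • x)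
    have key := integral_half (G := {x | t < h x}.indicator fun _ => (1 : ℝ)) (fun i x => by
      simp only [indicator, mem_ofPred_eq, congrFun (hsymm i) x]) (measurable_const.indicator hms) (C := 1)
      (fun x => by simp only [indicator]; split_ifs <;> simp)
    rw [setIntegral_indicator hms, setIntegral_const, smul_eq_mul, mul_one] at key
    have e2 : (fun x : R3 => {x | t < h x}.indicator (fun _ => (1 : ℝ)) ((1 / 2 : ℝ) • x)) =
        ((fun x : R3 => (1 / 2 : ℝ) • x) ⁻¹' {x | t < h x}).indicator fun _ => (1 : ℝ) := rfl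
    rw [e2, setIntegral_indicator hms', setIntegral_const, smul_eq_mul, mul_one] at key
    rw [levelVol, hset]; exact key
  have hgrad := integral_gradNorm_small hh.lip hsymm
  have hcube := H L (small h) (lipschitzWith_small hh.lip) (fun x => hh.range _) hanti
  simp only [hlev, hgrad, cubeCandidate, intervalIntegral.integral_div] at hcube
  linarith [hh.energy]

end Vale.Agent.P232.Symm
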