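import Vale.Agent.P232.Symm.CubeTools

/-! # P232: reduction in the cube to sorted functions -/

open MeasureTheory Filter Set Function
open scoped Topology NNReal

namespace Vale.Agent.P232.Symm

/-- The weight preferring the coordinates in the order `0, 1, 2`. -/
def cubeWeight (x : R3) : ℝ := ∑ k : Fin 3, (3 - (k : ℕ) : ℝ) * x k

theorem cubeWeight_exch {i j : Fin 3} (hij : i ≠ j) (x : R3) :
    cubeWeight (exch i j x) - cubeWeight x =
      (((i : ℕ) : ℝ) - (j : ℕ)) * (x i - x j) := by
  simp only [cubeWeight, ← Finset.sum_sub_distrib, ← mul_sub, exch, comp_apply]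
  rw [Finset.sum_eq_add i j hij (fun k _ hk => by rw [Equiv.swap_apply_of_ne_of_ne hk.1 hk.2]; ring)
    (by simp) (by simp), Equiv.swap_apply_left, Equiv.swap_apply_right]
  ring

theorem exch_mem_cube (i j : Fin 3) {x : R3} (hx : x ∈ cube) : exch i j x ∈ cube := by
  rw [← exch_preimage_cube i j] at hx; exact hx

theorem fix_exch {i j : Fin 3} (hij : i ≠ j) (h : R3 → ℝ) : Fix cubeWeight (exch i j) h := fun x hx => by
  have e := cubeWeight_exch hij x
  rw [hx, sub_self] at e
  have hne : (((i : ℕ) : ℝ) - (j : ℕ)) ≠ 0 := sub_ne_zero.2 (by exact_mod_cast Fin.val_ne_of_ne hij)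
  have hxij : x i = x j := sub_eq_zero.1 ((mul_eq_zero.1 e.symm).resolve_left hne)
  refine congrArg h (funext fun k => ?_)
  simp only [exch, comp_apply]
  rcases eq_or_ne k i with rfl | hi
  · rw [Equiv.swap_apply_left, hxij]
  rcases eq_or_ne k j with rfl | hj
  · rw [Equiv.swap_apply_right, hxij]
  · rw [Equiv.swap_apply_of_ne_of_ne hi hj]

theorem sys_exch : Sys ∅ cubeWeight {σ | ∃ i j : Fin 3, i < j ∧ σ = exch i j} CubeAntitone where
  refl σ hσ := by obtain ⟨i, j, -, rfl⟩ := hσ; exact exch_refl i j
  wc := by unfold cubeWeight; fun_prop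
  wT _ k hk := absurd hk (notMem_empty k)
  inv _ _ _ _ _ k hk := absurd hk (notMem_empty k)
  fix σ hσ h _ := by obtain ⟨i, j, hij, rfl⟩ := hσ; exact fix_exch hij.ne h
  int σ hσ G _ _ _ := by obtain ⟨i, j, -, rfl⟩ := hσ; exact integral_exch i j G
  qlim h f hh hlim := fun x hx y hy hxy =>
    le_of_tendsto_of_tendsto (hlim y) (hlim x) (Eventually.of_forall fun n => hh n hx hy hxy)
  qpol σ hσ h _ hh := by
    obtain ⟨i, j, hij, rfl⟩ := hσ
    have hwc : Continuous cubeWeight := by unfold cubeWeight; fun_prop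
    have hfix := fix_exch hij.ne h
    have hcv : Convex ℝ cube := convex_Icc (0 : R3) 1
    have aM : ∀ x ∈ cube, ∀ y ∈ cube, x ≤ y →
        max (h y) (h (exch i j y)) ≤ max (h x) (h (exch i j x)) ∧
          min (h y) (h (exch i j y)) ≤ min (h x) (h (exch i j x)) := fun x hx y hy hxy =>
      have h1 := hh hx hy hxy
      have h2 := hh (exch_mem_cube i j hx) (exch_mem_cube i j hy) fun k => hxy _
      ⟨max_le_max h1 h2, min_le_min h1 h2⟩
    intro x hx y hy hxy
    set w := cubeWeight
    set σ := exch i j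
    have hseg : ∀ z ∈ segment ℝ x y, z ∈ cube ∧ x ≤ z ∧ z ≤ y := fun z hz =>
      ⟨hcv.segment_subset hx hy hz, segment_subset_Icc hxy hz⟩
    rcases le_total (w (σ x)) (w x) with a | a <;> rcases le_total (w (σ y)) (w y) with b | b
    · rw [show pol w σ h x = _ from if_pos a, show pol w σ h y = _ from if_pos b]
      exact (aM x hx y hy hxy).1
    · rw [show pol w σ h x = _ from if_pos a, pol_of_le hfix b]
      exact min_le_max.trans (aM x hx y hy hxy).1
    · rw [pol_of_le hfix a, show pol w σ h y = _ from if_pos b]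
      obtain ⟨z, hz, he, -⟩ := exists_interface (exch_refl i j) hwc hfix b a
      rw [segment_symm] at hz
      obtain ⟨hzc, hxz, hzy⟩ := hseg z hz
      exact ((aM z hzc y hy hzy).1.trans he.le).trans (aM x hx z hzc hxz).2
    · rw [pol_of_le hfix a, pol_of_le hfix b]
      exact (aM x hx y hy hxy).2

/-- **Sorted functions suffice in the cube.** -/
theorem cubeIso_of_sortedIso (H : SortedIso) : CubeIso := by
  intro L g hg hI hanti
  obtain ⟨h, hh, hfixed⟩ := exists_fixed sys_exch
    (f := g) (L := L) ⟨hg, hI, fun _ k hk => absurd hk (notMem_empty k), hanti, fun _ _ => rfl, le_rfl⟩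
  have hs : CubeSorted h := by
    intro p hp i j hij hle
    rcases hle.eq_or_lt with he | hlt
    · refine le_of_eq (congrArg h (funext fun k => ?_))
      simp only [comp_apply]
      rcases eq_or_ne k i with rfl | hi
      · rw [Equiv.swap_apply_left, he]
      rcases eq_or_ne k j with rfl | hj
      · rw [Equiv.swap_apply_right, he]
      · rw [Equiv.swap_apply_of_ne_of_ne hi hj]
    · have hq : cubeWeight (exch i j (exch i j p)) < cubeWeight (exch i j p) := by
        rw [(exch_refl i j).inv, ← sub_pos, cubeWeight_exch hij.ne p]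
        refine mul_pos_of_neg_of_neg (sub_neg.2 ?_) (sub_neg.2 hlt)
        exact_mod_cast hij
      have := hfixed _ ⟨i, j, hij, rfl⟩ _ (exch_mem_cube i j hp) hq
      rw [(exch_refl i j).inv] at this
      exact this
  have e := funext (levelVol_eq hh.lip.continuous hg.continuous hh.moment)
  rw [← e]
  exact (H L h hh.lip hh.range hh.q hs).trans hh.energy

end Vale.Agent.P232.Symm
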