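import Vale.Agent.P232.Symm.Max

/-! # P232: reflections of the cube and slices of integrals over it -/

open MeasureTheory Filter Set Function
open scoped Topology NNReal

namespace Vale.Agent.P232.Symm

variable {f : R3 → ℝ}

/-- A signed permutation with a common factor rescales the length of the gradient. -/
theorem gradNorm_comp (A : R3 ≃L[ℝ] R3) (c : R3) (a : ℝ) (π : Equiv.Perm (Fin 3)) (s : Fin 3 → ℝ)
    (hA : ∀ j, A (Pi.single j 1) = s j • Pi.single (π j) 1) (hs : ∀ j, s j ^ 2 = a ^ 2) (ha : 0 ≤ a)
    (x : R3) : gradNorm (fun y => f (A y + c)) x = a * gradNorm f (A x + c) := by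
  have hd : fderiv ℝ (fun y => f (A y + c)) x = (fderiv ℝ f (A x + c)).comp (A : R3 →L[ℝ] R3) := by
    rw [← fderiv_comp_add_right c]
    exact A.comp_right_fderiv (f := fun z => f (z + c))
  have e : ∑ i, pd (fun y => f (A y + c)) i x ^ 2 = a ^ 2 * ∑ i, pd f i (A x + c) ^ 2 := by
    rw [Finset.mul_sum, ← Equiv.sum_comp π fun i => a ^ 2 * pd f i (A x + c) ^ 2]
    refine Finset.sum_congr rfl fun i _ => ?_
    have hp : pd (fun y => f (A y + c)) i x = s i * pd f (π i) (A x + c) := by
      rw [pd, hd, ContinuousLinearMap.comp_apply, ContinuousLinearEquiv.coe_coe, hA, map_smul, smul_eq_mul]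
      rfl
    rw [hp, mul_pow, hs]
  rw [gradNorm, gradNorm, e, Real.sqrt_mul (sq_nonneg a), Real.sqrt_sq ha]

/-- The reflection `x i ↦ 2 a - x i`. -/
noncomputable def mirror (i : Fin 3) (a : ℝ) (x : R3) : R3 := update x i (2 * a - x i)

theorem mirror_refl (i : Fin 3) (a : ℝ) : Refl (mirror i a) where
  inv x := by
    ext j
    rcases eq_or_ne j i with rfl | h
    · simp [mirror]
    · simp [mirror, h]
  lip := LipschitzWith.of_dist_le_mul fun x y => by
    rw [NNReal.coe_one, one_mul, dist_pi_le_iff dist_nonneg]
    intro j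
    rcases eq_or_ne j i with rfl | h
    · simp only [mirror, update_self, Real.dist_eq]
      rw [show 2 * a - x j - (2 * a - y j) = -(x j - y j) by ring, abs_neg, ← Real.dist_eq]
      exact dist_le_pi_dist x y j
    · simpa [mirror, h] using dist_le_pi_dist x y j
  grad f x := by
    let A : R3 ≃L[ℝ] R3 := (LinearEquiv.piCongrRight fun j =>
      if j = i then LinearEquiv.neg ℝ else LinearEquiv.refl ℝ ℝ).toContinuousLinearEquiv
    have hA : ∀ y j, A y j = if j = i then -y j else y j := fun y j => by
      show (if j = i then LinearEquiv.neg ℝ else LinearEquiv.refl ℝ ℝ) (y j) = _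
      split_ifs <;> simp
    have hm : ∀ y, mirror i a y = A y + Pi.single i (2 * a) := fun y => by
      ext j
      rcases eq_or_ne j i with rfl | h
      · simp [mirror, hA]; ring
      · simp [mirror, hA, h]
    simp only [hm]
    rw [gradNorm_comp A _ 1 (Equiv.refl _) (fun j => if j = i then -1 else 1) (fun j => ?_)
      (fun j => by split_ifs <;> simp) zero_le_one, one_mul]
    ext k
    rw [hA, Equiv.refl_apply, Pi.smul_apply, smul_eq_mul]
    rcases eq_or_ne k j with rfl | h
    · split_ifs <;> simp
    · simp [h]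

/-- The exchange of two coordinates. -/
def exch (i j : Fin 3) (x : R3) : R3 := x ∘ Equiv.swap i j

theorem exch_refl (i j : Fin 3) : Refl (exch i j) where
  inv x := by ext k; simp [exch]
  lip := LipschitzWith.of_dist_le_mul fun x y => by
    rw [NNReal.coe_one, one_mul, dist_pi_le_iff dist_nonneg]
    exact fun k => dist_le_pi_dist x y _
  grad f x := by
    let A : R3 ≃L[ℝ] R3 := (LinearEquiv.funCongrLeft ℝ ℝ (Equiv.swap i j)).toContinuousLinearEquiv
    have h := gradNorm_comp (f := f) A 0 1 (Equiv.swap i j) (fun _ => 1) (fun k => ?_) (fun _ => rfl)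
      zero_le_one x
    · simp only [add_zero, one_mul] at h
      exact h
    · ext l
      show (Pi.single k (1:ℝ) : R3) (Equiv.swap i j l) = _
      rcases eq_or_ne (Equiv.swap i j l) k with h | h
      · subst h; simp
      · have : l ≠ Equiv.swap i j k := fun e => h (by simp [e])
        simp [h, this]

theorem measurePreserving_exch (i j : Fin 3) : MeasurePreserving (exch i j) volume volume := by
  have h := volume_measurePreserving_piCongrLeft (fun _ : Fin 3 => ℝ) (Equiv.swap i j)
  convert h using 1
  funext x k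
  obtain ⟨l, rfl⟩ := (Equiv.swap i j).surjective k
  show x (Equiv.swap i j (Equiv.swap i j l)) = _
  rw [MeasurableEquiv.coe_piCongrLeft, Equiv.piCongrLeft_apply_apply, Equiv.swap_apply_self]

theorem exch_preimage_cube (i j : Fin 3) : exch i j ⁻¹' cube = cube := by
  ext x
  simp only [cube, mem_preimage, ← Set.pi_univ_Icc, mem_univ_pi, exch, comp_apply]
  refine ⟨fun h k => by simpa using h (Equiv.swap i j k), fun h k => ?_⟩
  exact h (Equiv.swap i j k)

theorem integral_exch (i j : Fin 3) (G : R3 → ℝ) :
    ∫ x in cube, G (exch i j x) = ∫ x in cube, G x := by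
  have he : MeasurableEmbedding (exch i j) := by
    refine MeasurableEmbedding.of_measurable_inverse (g := exch i j) (exch_refl i j).lip.continuous.measurable ?_
      (exch_refl i j).lip.continuous.measurable (exch_refl i j).inv
    rw [show range (exch i j) = univ from eq_univ_of_forall fun x => ⟨exch i j x, (exch_refl i j).inv x⟩]
    exact MeasurableSet.univ
  conv_lhs => rw [← exch_preimage_cube i j]
  exact (measurePreserving_exch i j).setIntegral_preimage_emb he G cube

theorem insertNth_mem_cube {i : Fin 3} {t : ℝ} {y : Fin 2 → ℝ} :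
    i.insertNth t y ∈ cube ↔ t ∈ Icc (0 : ℝ) 1 ∧ y ∈ Icc (0 : Fin 2 → ℝ) 1 := by
  simp only [cube, mem_Icc, Pi.le_def, Fin.forall_iff_succAbove i, Fin.insertNth_apply_same,
    Fin.insertNth_apply_succAbove, Pi.zero_apply, Pi.one_apply]
  tauto

/-- Two functions with the same integrals on the segments parallel to an axis have the same integral. -/
theorem integral_congr_slices {G H : R3 → ℝ} (hG : IntegrableOn G cube) (hH : IntegrableOn H cube)
    (i : Fin 3) (h : ∀ y ∈ Icc (0 : Fin 2 → ℝ) 1,
      ∫ t in Icc (0 : ℝ) 1, G (i.insertNth t y) = ∫ t in Icc (0 : ℝ) 1, H (i.insertNth t y)) :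
    ∫ x in cube, G x = ∫ x in cube, H x := by
  set e := MeasurableEquiv.piFinSuccAbove (fun _ : Fin 3 => ℝ) i
  have hmp : MeasurePreserving e volume volume := volume_preserving_piFinSuccAbove (fun _ : Fin 3 => ℝ) i
  have hsymm : ∀ p : ℝ × (Fin 2 → ℝ), e.symm p = i.insertNth p.1 p.2 := fun p => rfl
  have hpre : e.symm ⁻¹' cube = Icc (0 : ℝ) 1 ×ˢ Icc (0 : Fin 2 → ℝ) 1 := by
    ext p; rw [mem_preimage, hsymm, insertNth_mem_cube, mem_prod]
  have key : ∀ F : R3 → ℝ, IntegrableOn F cube →
      ∫ x in cube, F x = ∫ y in Icc (0 : Fin 2 → ℝ) 1, ∫ t in Icc (0 : ℝ) 1, F (i.insertNth t y) := by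
    intro F hF
    have hs := (MeasurePreserving.symm e hmp)
    rw [← hs.setIntegral_preimage_emb e.symm.measurableEmbedding F cube, hpre]
    have hi : IntegrableOn (F ∘ e.symm) (Icc (0 : ℝ) 1 ×ˢ Icc (0 : Fin 2 → ℝ) 1) := by
      rw [← hpre, hs.integrableOn_comp_preimage e.symm.measurableEmbedding]; exact hF
    rw [Measure.volume_eq_prod, ← Measure.prod_restrict]
    rw [IntegrableOn, Measure.volume_eq_prod, ← Measure.prod_restrict] at hi
    exact integral_prod_symm _ hi
  rw [key G hG, key H hH]
  exact setIntegral_congr_fun measurableSet_Icc fun y hy => h y hy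

theorem mirror_insertNth (i : Fin 3) (a t : ℝ) (y : Fin 2 → ℝ) :
    mirror i a (i.insertNth t y) = i.insertNth (2 * a - t) y := by
  rw [mirror, Fin.insertNth_apply_same, Fin.update_insertNth]

/-- Reflections preserve the integral of periodic functions over the cube. -/
theorem integral_mirror {G : R3 → ℝ} (i : Fin 3) (a : ℝ) (hp : ∀ x, G (x + Pi.single i 1) = G x)
    (hG : IntegrableOn G cube) (hG' : IntegrableOn (fun x => G (mirror i a x)) cube) :
    ∫ x in cube, G (mirror i a x) = ∫ x in cube, G x := by
  refine integral_congr_slices hG' hG i fun y _ => ?_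
  set g : ℝ → ℝ := fun t => G (i.insertNth t y)
  have hg : Periodic g 1 := fun t => by
    have e : (i.insertNth (t + 1) y : R3) = i.insertNth t y + Pi.single i 1 := by
      ext k; refine Fin.succAboveCases i ?_ (fun l => ?_) k <;> simp [Fin.succAbove_ne]
    simp only [g, e, hp]
  simp only [mirror_insertNth]
  rw [integral_Icc_eq_integral_Ioc, ← intervalIntegral.integral_of_le zero_le_one,
    integral_Icc_eq_integral_Ioc, ← intervalIntegral.integral_of_le zero_le_one]
  show ∫ t in (0 : ℝ)..1, g (2 * a - t) = ∫ t in (0 : ℝ)..1, g t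
  rw [intervalIntegral.integral_comp_sub_left g (2 * a), sub_zero]
  have := hg.intervalIntegral_add_eq (2 * a - 1) 0
  rw [sub_add_cancel, zero_add] at this
  exact this

/-- Folding: for a function symmetric about the middle plane the integral is that of its dilation. -/
theorem integral_fold {G : R3 → ℝ} (i : Fin 3) (hsym : ∀ x ∈ cube, G (mirror i (1 / 2) x) = G x)
    (hm : Measurable G) {C : ℝ} (hb : ∀ x, |G x| ≤ C) :
    ∫ x in cube, G (update x i (x i / 2)) = ∫ x in cube, G x := by
  have hu : Measurable fun x : R3 => update x i (x i / 2) :=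
    measurable_pi_lambda _ fun k => by
      rcases eq_or_ne k i with rfl | h
      · simp only [update_self]; fun_prop
      · simp only [update_of_ne h]; fun_prop
  refine integral_congr_slices (integrableOn_cube (hm.comp hu) fun x => hb _) (integrableOn_cube hm hb) i
    fun y hy => ?_
  simp only [Fin.insertNth_apply_same, Fin.update_insertNth]
  set g : ℝ → ℝ := fun t => G (i.insertNth t y)
  have hins : Measurable fun t : ℝ => (i.insertNth t y : R3) :=
    measurable_pi_lambda _ fun k => by
      refine Fin.succAboveCases i ?_ (fun l => ?_) k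
      · simp only [Fin.insertNth_apply_same]; exact measurable_id
      · simp only [Fin.insertNth_apply_succAbove]; exact measurable_const
  have hgi : ∀ u v : ℝ, IntervalIntegrable g volume u v := fun u v => by
    rw [intervalIntegrable_iff]
    exact Measure.integrableOn_of_bounded (by simp [Set.uIoc, Real.volume_Ioc])
      (hm.comp hins).aestronglyMeasurable (Eventually.of_forall fun t => hb _)
  rw [integral_Icc_eq_integral_Ioc, ← intervalIntegral.integral_of_le zero_le_one,
    integral_Icc_eq_integral_Ioc, ← intervalIntegral.integral_of_le zero_le_one]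
  show ∫ t in (0 : ℝ)..1, g (t / 2) = ∫ t in (0 : ℝ)..1, g t
  rw [intervalIntegral.integral_comp_div g (two_ne_zero' ℝ),
    ← intervalIntegral.integral_add_adjacent_intervals (hgi 0 (1 / 2)) (hgi (1 / 2) 1)]
  have hs : ∫ t in (1 / 2 : ℝ)..1, g t = ∫ t in (1 / 2 : ℝ)..1, g (1 - t) := by
    refine intervalIntegral.integral_congr fun t ht => ?_
    rw [uIcc_of_le (by norm_num)] at ht
    have hmem : (i.insertNth t y : R3) ∈ cube :=
      insertNth_mem_cube.2 ⟨⟨by linarith [ht.1], ht.2⟩, hy⟩
    have h := hsym _ hmem
    rw [mirror_insertNth] at h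
    simp only [g, ← h]
    norm_num
  rw [hs, intervalIntegral.integral_comp_sub_left g]
  norm_num
  ring

end Vale.Agent.P232.Symm
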