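import Vale.Agent.P232.Interfaces

/-! # P232: the Dirichlet integral `∫ ‖∇f‖` is lower semicontinuous along bounded Lipschitz sequences -/

open MeasureTheory Filter Set
open scoped Topology NNReal ENNReal

namespace Vale.Agent.P232.Symm

variable {f : R3 → ℝ} {L : ℝ≥0}

theorem measurable_pd (f : R3 → ℝ) (i : Fin 3) : Measurable (pd f i) :=
  measurable_fderiv_apply_const ℝ f _

theorem abs_pd_le (hf : LipschitzWith L f) (i : Fin 3) (x : R3) : |pd f i x| ≤ L := by
  have h := (fderiv ℝ f x).le_opNorm (Pi.single i (1 : ℝ))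
  rw [Pi.norm_single, norm_one, mul_one, Real.norm_eq_abs] at h
  exact h.trans (norm_fderiv_le_of_lipschitz ℝ hf)

theorem measurable_gradNorm (f : R3 → ℝ) : Measurable (gradNorm f) :=
  (Finset.measurable_sum _ fun i _ => (measurable_pd f i).pow_const 2).sqrt

theorem gradNorm_nonneg (f : R3 → ℝ) (x : R3) : 0 ≤ gradNorm f x := Real.sqrt_nonneg _

theorem gradNorm_le (hf : LipschitzWith L f) (x : R3) : gradNorm f x ≤ 3 * L := by
  rw [gradNorm, Real.sqrt_le_iff]
  refine ⟨by positivity, (Finset.sum_le_card_nsmul _ _ ((L : ℝ) ^ 2) fun i _ => ?_).trans ?_⟩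
  · rw [sq_le_sq, abs_of_nonneg L.coe_nonneg]; exact abs_pd_le hf i x
  · simp; nlinarith [L.2]

theorem volume_cube : volume cube = 1 := by
  simp [cube, ← Set.pi_univ_Icc, volume_pi_pi]

theorem isCompact_cube : IsCompact cube := isCompact_Icc

theorem measurableSet_cube : MeasurableSet cube := measurableSet_Icc

/-- A bounded measurable function is integrable on the cube. -/
theorem integrableOn_cube {G : R3 → ℝ} (hG : Measurable G) {C : ℝ} (hb : ∀ x, |G x| ≤ C) :
    IntegrableOn G cube :=
  Measure.integrableOn_of_bounded (by simp [volume_cube]) hG.aestronglyMeasurable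
    (Eventually.of_forall fun x => hb x)

theorem integrableOn_gradNorm (hf : LipschitzWith L f) : IntegrableOn (gradNorm f) cube :=
  integrableOn_cube (measurable_gradNorm f) (C := 3 * L) fun x => by
    rw [abs_of_nonneg (gradNorm_nonneg f x)]; exact gradNorm_le hf x

theorem integral_pd_mul (hf : LipschitzWith L f) {g : R3 → ℝ} {D : ℝ≥0} (hg : LipschitzWith D g)
    (hgs : HasCompactSupport g) (i : Fin 3) :
    ∫ x, pd f i x * g x = ∫ x, lineDeriv ℝ g x (-Pi.single i 1) * f x := by
  rw [← hf.integral_lineDeriv_mul_eq hg hgs]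
  refine integral_congr_ae ?_
  filter_upwards [hf.ae_differentiableAt] with x hx
  rw [pd, hx.lineDeriv_eq_fderiv]

/-- Weak convergence of the partial derivatives. -/
theorem tendsto_integral_pd_mul {h : ℕ → R3 → ℝ} (hL : ∀ n, LipschitzWith L (h n))
    (hfL : LipschitzWith L f) (hI : ∀ n x, |h n x| ≤ 1)
    (hlim : ∀ x, Tendsto (fun n => h n x) atTop (𝓝 (f x))) {ψ : R3 → ℝ} (hψ : Integrable ψ)
    (i : Fin 3) :
    Tendsto (fun n => ∫ x, pd (h n) i x * ψ x) atTop (𝓝 (∫ x, pd f i x * ψ x)) := by
  rw [Metric.tendsto_atTop]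
  intro ε hε
  set δ := ε / (3 * ((L : ℝ) + 1)) with hδ
  have hδ0 : 0 < δ := by positivity
  obtain ⟨g, hgs, hgc, hge⟩ :=
    (memLp_one_iff_integrable.2 hψ).exist_eLpNorm_sub_le ENNReal.one_ne_top le_rfl hδ0
  have hgd : ContDiff ℝ 1 g := hgc.of_le (by exact_mod_cast le_top)
  obtain ⟨D, hD⟩ := ContDiff.lipschitzWith_of_hasCompactSupport hgs hgd one_ne_zero
  have hgi : Integrable g := hgd.continuous.integrable_of_hasCompactSupport hgs
  have hd : ∫ x, |ψ x - g x| ≤ δ := by
    have e : ∫ x, |ψ x - g x| = (eLpNorm (ψ - g) 1 volume).toReal := by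
      rw [eLpNorm_one_eq_lintegral_enorm, ← integral_norm_eq_lintegral_enorm
        (hψ.sub hgi).aestronglyMeasurable]
      rfl
    rw [e]
    exact (ENNReal.toReal_mono ENNReal.ofReal_ne_top hge).trans_eq (ENNReal.toReal_ofReal hδ0.le)
  have hpg : ∀ F, LipschitzWith L F → |(∫ x, pd F i x * ψ x) - ∫ x, pd F i x * g x| ≤ L * δ := by
    intro F hF
    have i1 : Integrable fun x => pd F i x * ψ x :=
      hψ.bdd_mul (measurable_pd F i).aestronglyMeasurable (Eventually.of_forall (abs_pd_le hF i))
    have i2 : Integrable fun x => pd F i x * g x :=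
      hgi.bdd_mul (measurable_pd F i).aestronglyMeasurable (Eventually.of_forall (abs_pd_le hF i))
    rw [← integral_sub i1 i2]
    refine abs_integral_le_integral_abs.trans (le_trans ?_ (mul_le_mul_of_nonneg_left hd L.2))
    rw [← integral_const_mul]
    refine integral_mono (i1.sub i2).abs (((hψ.sub hgi).abs).const_mul _) fun x => ?_
    simp only [← mul_sub, abs_mul]
    exact mul_le_mul_of_nonneg_right (abs_pd_le hF i x) (abs_nonneg _)
  have hdom : Tendsto (fun n => ∫ x, lineDeriv ℝ g x (-Pi.single i 1) * h n x) atTop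
      (𝓝 (∫ x, lineDeriv ℝ g x (-Pi.single i 1) * f x)) := by
    have hm : Continuous fun x => lineDeriv ℝ g x (-Pi.single i 1) := by
      have e : (fun x => lineDeriv ℝ g x (-Pi.single i 1)) = fun x => fderiv ℝ g x (-Pi.single i 1) :=
        funext fun x => ((hgd.differentiable one_ne_zero) x).lineDeriv_eq_fderiv
      rw [e]
      exact (hgd.continuous_fderiv one_ne_zero).clm_apply continuous_const
    have hms : HasCompactSupport fun x => lineDeriv ℝ g x (-Pi.single i 1) := by
      have e : (fun x => lineDeriv ℝ g x (-Pi.single i 1)) = fun x => fderiv ℝ g x (-Pi.single i 1) :=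
        funext fun x => ((hgd.differentiable one_ne_zero) x).lineDeriv_eq_fderiv
      rw [e]
      exact hgs.fderiv_apply ℝ _
    refine tendsto_integral_of_dominated_convergence (fun x => |lineDeriv ℝ g x (-Pi.single i 1)|)
      (fun n => (hm.mul (hL n).continuous).aestronglyMeasurable)
      (hm.integrable_of_hasCompactSupport hms).abs (fun n => Eventually.of_forall fun x => ?_)
      (Eventually.of_forall fun x => (hlim x).const_mul _)
    rw [Real.norm_eq_abs, abs_mul]
    exact mul_le_of_le_one_right (abs_nonneg _) (hI n x)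
  simp only [← fun n => integral_pd_mul (hL n) hD hgs i, ← integral_pd_mul hfL hD hgs i] at hdom
  obtain ⟨N, hN⟩ := Metric.tendsto_atTop.1 hdom (ε / 3) (by linarith)
  refine ⟨N, fun n hn => ?_⟩
  have h1 := abs_le.1 (hpg _ (hL n))
  have h2 := abs_le.1 (hpg _ hfL)
  have h3 := hN n hn
  have hb : (L : ℝ) * δ < ε / 3 := by
    rw [hδ, ← mul_div_assoc, div_lt_div_iff₀ (by positivity) (by norm_num)]
    nlinarith [L.2]
  rw [Real.dist_eq, abs_lt] at h3 ⊢
  constructor <;> linarith [h3.1, h3.2]

/-- Lower semicontinuity. -/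
theorem integral_gradNorm_le {h : ℕ → R3 → ℝ} (hL : ∀ n, LipschitzWith L (h n))
    (hfL : LipschitzWith L f) (hI : ∀ n x, |h n x| ≤ 1)
    (hlim : ∀ x, Tendsto (fun n => h n x) atTop (𝓝 (f x))) {C : ℝ}
    (hC : ∀ n, ∫ x in cube, gradNorm (h n) x ≤ C) : ∫ x in cube, gradNorm f x ≤ C := by
  set φ : Fin 3 → R3 → ℝ := fun i => cube.indicator fun x => pd f i x / gradNorm f x with hφ
  have hφb : ∀ i x, |pd f i x / gradNorm f x| ≤ 1 := by
    intro i x
    rw [abs_div, abs_of_nonneg (gradNorm_nonneg f x)]
    refine div_le_one_of_le₀ (Real.abs_le_sqrt ?_) (gradNorm_nonneg f x)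
    exact Finset.single_le_sum (f := fun j => pd f j x ^ 2) (fun j _ => sq_nonneg _) (Finset.mem_univ i)
  have hint : ∀ i, Integrable (φ i) := fun i => by
    rw [hφ, integrable_indicator_iff measurableSet_cube]
    exact integrableOn_cube ((measurable_pd f i).div (measurable_gradNorm f)) (hφb i)
  have hpair : ∀ {F : R3 → ℝ}, LipschitzWith L F → ∀ i,
      Integrable (fun x => pd F i x * φ i x) := fun {F} hF i =>
    (hint i).bdd_mul (measurable_pd F i).aestronglyMeasurable (Eventually.of_forall (abs_pd_le hF i))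
  have hle : ∀ {F : R3 → ℝ}, LipschitzWith L F →
      (∑ i, ∫ x, pd F i x * φ i x) ≤ ∫ x in cube, gradNorm F x := by
    intro F hF
    rw [← integral_finsetSum _ fun i _ => hpair hF i, ← integral_indicator measurableSet_cube]
    refine integral_mono (integrable_finsetSum _ fun i _ => hpair hF i)
      ((integrable_indicator_iff measurableSet_cube).2 (integrableOn_gradNorm hF)) fun x => ?_
    by_cases hx : x ∈ cube
    · simp only [hφ, indicator_of_mem hx]
      rcases eq_or_lt_of_le (gradNorm_nonneg f x) with h0 | h0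
      · simp [← h0, gradNorm_nonneg]
      · rw [show ∑ i, pd F i x * (pd f i x / gradNorm f x) = (∑ i, pd F i x * pd f i x) / gradNorm f x by
          rw [Finset.sum_div]; exact Finset.sum_congr rfl fun i _ => mul_div_assoc' _ _ _,
          div_le_iff₀ h0]
        exact Real.sum_mul_le_sqrt_mul_sqrt _ _ _
    · simp [hφ, hx]
  have heq : (∫ x in cube, gradNorm f x) = ∑ i, ∫ x, pd f i x * φ i x := by
    rw [← integral_finsetSum _ fun i _ => hpair hfL i, ← integral_indicator measurableSet_cube]
    refine integral_congr_ae (Eventually.of_forall fun x => ?_)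
    by_cases hx : x ∈ cube
    · simp only [hφ, indicator_of_mem hx]
      rw [show ∑ i, pd f i x * (pd f i x / gradNorm f x) = (∑ i, pd f i x ^ 2) / gradNorm f x by
        rw [Finset.sum_div]; exact Finset.sum_congr rfl fun i _ => by ring]
      exact (Real.div_sqrt (x := ∑ i, pd f i x ^ 2)).symm
    · simp [hφ, hx]
  rw [heq]
  refine le_of_tendsto (tendsto_finsetSum _ fun i _ => tendsto_integral_pd_mul hL hfL hI hlim (hint i) i)
    (Eventually.of_forall fun n => (hle (hL n)).trans (hC n))

end Vale.Agent.P232.Symm
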