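import Vale.Agent.P232.Symm.Pol

/-! # P232: a function fixed by all polarisations, by compactness -/

open MeasureTheory Filter Set
open scoped Topology NNReal

namespace Vale.Agent.P232.Symm

/-- Invariance under the translations of `T`. -/
def Inv (T : Set R3) (G : R3 → ℝ) : Prop := ∀ x, ∀ k ∈ T, G (x + k) = G x

/-- A family of polarisations with a common weight. -/
structure Sys (T : Set R3) (w : R3 → ℝ) (S : Set (R3 → R3)) (Q : (R3 → ℝ) → Prop) : Prop where
  refl : ∀ σ ∈ S, Refl σ
  wc : Continuous w
  wT : Inv T w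
  inv : ∀ σ ∈ S, ∀ G : R3 → ℝ, Inv T G → Inv T fun x => G (σ x)
  fix : ∀ σ ∈ S, ∀ h : R3 → ℝ, Inv T h → Fix w σ h
  int : ∀ σ ∈ S, ∀ G : R3 → ℝ, Inv T G → IntegrableOn G cube → IntegrableOn (fun x => G (σ x)) cube →
    ∫ x in cube, G (σ x) = ∫ x in cube, G x
  qlim : ∀ (h : ℕ → R3 → ℝ) (f : R3 → ℝ), (∀ n, Q (h n)) →
    (∀ x, Tendsto (fun n => h n x) atTop (𝓝 (f x))) → Q f
  qpol : ∀ σ ∈ S, ∀ h : R3 → ℝ, Inv T h → Q h → Q (pol w σ h)

/-- The competitors of `f` in the rearrangement. -/
structure Class (T : Set R3) (Q : (R3 → ℝ) → Prop) (L : ℝ≥0) (f h : R3 → ℝ) : Prop where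
  lip : LipschitzWith L h
  range : ∀ x, h x ∈ Icc (0 : ℝ) 1
  inv : Inv T h
  q : Q h
  moment : ∀ ψ : ℝ → ℝ, Continuous ψ → ∫ x in cube, ψ (h x) = ∫ x in cube, ψ (f x)
  energy : ∫ x in cube, gradNorm h x ≤ ∫ x in cube, gradNorm f x

variable {T : Set R3} {w : R3 → ℝ} {S : Set (R3 → R3)} {Q : (R3 → ℝ) → Prop} {L : ℝ≥0} {f h : R3 → ℝ}

theorem inv_gradNorm (hh : Inv T h) : Inv T (gradNorm h) := fun x k hk => by
  have e : (fun y => h (y + k)) = h := funext fun y => hh y k hk
  have := fderiv_comp_add_right (𝕜 := ℝ) (f := h) (x := x) k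
  rw [e] at this
  simp only [gradNorm, pd, this]

theorem inv_pol {σ : R3 → R3} (hw : Inv T w) (hwσ : Inv T fun x => w (σ x)) (hh : Inv T h)
    (hhσ : Inv T fun x => h (σ x)) : Inv T (pol w σ h) := fun x k hk => by
  have a := hwσ x k hk; have b := hhσ x k hk
  simp only at a b
  simp only [pol, hw x k hk, a, hh x k hk, b]

theorem continuousOn_cube_int {G : R3 → ℝ} (hG : Continuous G) : IntegrableOn G cube :=
  hG.continuousOn.integrableOn_compact isCompact_cube

/-- Polarisation stays in the class. -/
theorem Class.pol_mem (hs : Sys T w S Q) {σ : R3 → R3} (hσ : σ ∈ S) (hc : Class T Q L f h) :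
    Class T Q L f (pol w σ h) := by
  have hr := hs.refl σ hσ
  have hfix := hs.fix σ hσ h hc.inv
  have hinv : Inv T (pol w σ h) :=
    inv_pol hs.wT (hs.inv σ hσ w hs.wT) hc.inv (hs.inv σ hσ h hc.inv)
  have hL := lipschitzWith_pol hr hs.wc hfix hc.lip
  refine ⟨hL, Symm.pol_mem hc.range, hinv, hs.qpol σ hσ h hc.inv hc.q, fun ψ hψ => ?_, ?_⟩
  · rw [← hc.moment ψ hψ]
    have hP : Continuous fun x => ψ (pol w σ h x) := hψ.comp hL.continuous
    have hh : Continuous fun x => ψ (h x) := hψ.comp hc.lip.continuous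
    have hP' : Continuous fun x => ψ (pol w σ h (σ x)) := hP.comp hr.lip.continuous
    have hh' : Continuous fun x => ψ (h (σ x)) := hh.comp hr.lip.continuous
    have e1 := hs.int σ hσ (fun x => ψ (pol w σ h x)) (fun x k hk => congrArg ψ (hinv x k hk))
      (continuousOn_cube_int hP) (continuousOn_cube_int hP')
    have e2 := hs.int σ hσ (fun x => ψ (h x)) (fun x k hk => congrArg ψ (hc.inv x k hk))
      (continuousOn_cube_int hh) (continuousOn_cube_int hh')
    have e := setIntegral_congr_fun measurableSet_cube (μ := volume) fun x _ => pol_comp hr hfix ψ x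
    rw [integral_add (continuousOn_cube_int hP) (continuousOn_cube_int hP'),
      integral_add (continuousOn_cube_int hh) (continuousOn_cube_int hh')] at e
    linarith
  · refine le_trans (le_of_eq ?_) hc.energy
    have hPσ : IntegrableOn (fun x => gradNorm (pol w σ h) (σ x)) cube :=
      integrableOn_cube ((measurable_gradNorm _).comp hr.lip.continuous.measurable) (C := 3 * L)
        fun x => by rw [abs_of_nonneg (gradNorm_nonneg _ _)]; exact gradNorm_le hL _
    have hhσ : IntegrableOn (fun x => gradNorm h (σ x)) cube :=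
      integrableOn_cube ((measurable_gradNorm _).comp hr.lip.continuous.measurable) (C := 3 * L)
        fun x => by rw [abs_of_nonneg (gradNorm_nonneg _ _)]; exact gradNorm_le hc.lip _
    have e1 := hs.int σ hσ _ (inv_gradNorm hinv) (integrableOn_gradNorm hL) hPσ
    have e2 := hs.int σ hσ _ (inv_gradNorm hc.inv) (integrableOn_gradNorm hc.lip) hhσ
    have e := setIntegral_congr_ae measurableSet_cube
      ((gradNorm_pol hr hs.wc hfix hc.lip).mono fun x hx (_ : x ∈ cube) => hx)
    rw [integral_add (integrableOn_gradNorm hL) hPσ, integral_add (integrableOn_gradNorm hc.lip) hhσ] at e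
    linarith

/-- Sequential compactness of uniformly Lipschitz functions with values in `[0, 1]`. -/
theorem exists_tendsto {u : ℕ → R3 → ℝ} (hL : ∀ n, LipschitzWith L (u n))
    (hI : ∀ n x, u n x ∈ Icc (0 : ℝ) 1) :
    ∃ (φ : ℕ → ℕ) (h : R3 → ℝ), StrictMono φ ∧ LipschitzWith L h ∧ (∀ x, h x ∈ Icc (0 : ℝ) 1) ∧
      ∀ x, Tendsto (fun n => u (φ n) x) atTop (𝓝 (h x)) := by
  obtain ⟨d, hd⟩ := TopologicalSpace.exists_dense_seq R3
  obtain ⟨a, -, φ, hφ, ha⟩ := (isCompact_univ_pi fun _ : ℕ => isCompact_Icc (a := (0 : ℝ)) (b := 1)).tendsto_subseq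
    (x := fun n m => u n (d m)) fun n m _ => hI n (d m)
  have hc : ∀ x, CauchySeq fun n => u (φ n) x := by
    intro x
    rw [Metric.cauchySeq_iff']
    intro ε hε
    obtain ⟨m, hm⟩ := Metric.denseRange_iff.1 hd x (ε / (3 * ((L : ℝ) + 1))) (by positivity)
    have hconv := (tendsto_pi_nhds.1 ha m).cauchySeq
    obtain ⟨N, hN⟩ := Metric.cauchySeq_iff'.1 hconv (ε / 3) (by positivity)
    have hb : ∀ n, dist (u n x) (u n (d m)) < ε / 3 := fun n => by
      refine ((hL n).dist_le_mul x (d m)).trans_lt ?_
      calc (L : ℝ) * dist x (d m) ≤ ((L : ℝ) + 1) * dist x (d m) :=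
            mul_le_mul_of_nonneg_right (by linarith) dist_nonneg
        _ < ((L : ℝ) + 1) * (ε / (3 * ((L : ℝ) + 1))) := mul_lt_mul_of_pos_left hm (by positivity)
        _ = ε / 3 := by field_simp
    refine ⟨N, fun n hn => ?_⟩
    have := hN n hn
    simp only [Function.comp_def] at this
    have := dist_triangle4 (u (φ n) x) (u (φ n) (d m)) (u (φ N) (d m)) (u (φ N) x)
    have := dist_comm (u (φ N) (d m)) (u (φ N) x)
    linarith [hb (φ n), hb (φ N)]
  choose h hh using fun x => cauchySeq_tendsto_of_complete (hc x)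
  refine ⟨φ, h, hφ, LipschitzWith.of_dist_le_mul fun x y => ?_, fun x => ?_, hh⟩
  · exact le_of_tendsto ((hh x).dist (hh y)) (Eventually.of_forall fun n => (hL _).dist_le_mul x y)
  · exact isClosed_Icc.mem_of_tendsto (hh x) (Eventually.of_forall fun n => hI _ x)

/-- A continuous nonnegative function with zero integral on the cube vanishes on the cube. -/
theorem eq_zero_of_integral {G : R3 → ℝ} (hG : Continuous G) (h0 : ∀ x, 0 ≤ G x)
    (hi : ∫ x in cube, G x = 0) : ∀ x ∈ cube, G x = 0 := by
  have hae := (setIntegral_eq_zero_iff_of_nonneg_ae (Eventually.of_forall h0) (continuousOn_cube_int hG)).1 hi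
  intro x hx
  have hcl : cube ⊆ closure (interior cube) := by
    have hcv : Convex ℝ cube := convex_Icc (0 : R3) 1
    rw [hcv.closure_interior_eq_closure_of_nonempty_interior ?_]
    · exact subset_closure
    · exact ⟨fun _ => 1 / 2, by
        rw [cube, ← Set.pi_univ_Icc, interior_pi_set finite_univ]
        simp only [interior_Icc, mem_univ_pi, mem_Ioo, Pi.zero_apply, Pi.one_apply]
        exact fun i => ⟨by norm_num, by norm_num⟩⟩
  have hint : EqOn G 0 (interior cube) :=
    Measure.eqOn_open_of_ae_eq (ae_restrict_of_ae_restrict_of_subset interior_subset hae) isOpen_interior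
      hG.continuousOn continuousOn_const
  exact (hint.closure hG continuous_const) (hcl hx)

/-- **Some function of the class is fixed by all the polarisations.** -/
theorem exists_fixed (hs : Sys T w S Q) (hf : Class T Q L f f) :
    ∃ h, Class T Q L f h ∧ ∀ σ ∈ S, ∀ x ∈ cube, w (σ x) < w x → h (σ x) ≤ h x := by
  set Φ : (R3 → ℝ) → ℝ := fun h => ∫ x in cube, h x * w x with hΦ
  obtain ⟨B, hB⟩ := isCompact_cube.exists_bound_of_continuousOn hs.wc.continuousOn
  have hbd : ∀ h, Class T Q L f h → ∀ x ∈ cube, ‖h x * w x‖ ≤ B := fun h hh x hx => by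
    rw [norm_mul]
    refine (mul_le_of_le_one_left (norm_nonneg _) ?_).trans (hB x hx)
    rw [Real.norm_eq_abs, abs_of_nonneg (hh.range x).1]
    exact (hh.range x).2
  set V := Φ '' {h | Class T Q L f h}
  have hne : V.Nonempty := ⟨Φ f, f, hf, rfl⟩
  have hba : BddAbove V := by
    refine ⟨B * volume.real cube, ?_⟩
    rintro v ⟨h, hh, rfl⟩
    exact (le_abs_self _).trans (norm_setIntegral_le_of_norm_le_const (by simp [volume_cube]) (hbd h hh))
  obtain ⟨v, -, hv, hmem⟩ := exists_seq_tendsto_sSup hne hba
  choose u hu hΦu using hmem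
  obtain ⟨φ, h, hφ, hL, hI, hlim⟩ := exists_tendsto (fun n => (hu n).lip) fun n => (hu n).range
  have hh : Class T Q L f h := by
    refine ⟨hL, hI, fun x k hk => ?_, hs.qlim _ h (fun n => (hu (φ n)).q) hlim, fun ψ hψ => ?_, ?_⟩
    · exact tendsto_nhds_unique ((hlim (x + k)).congr fun n => (hu (φ n)).inv x k hk) (hlim x)
    · obtain ⟨C, hC⟩ := (isCompact_Icc (a := (0:ℝ)) (b := 1)).exists_bound_of_continuousOn hψ.continuousOn
      have := tendsto_integral_of_dominated_convergence (μ := volume.restrict cube) (fun _ => C)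
        (F := fun n x => ψ (u (φ n) x)) (fun n => (hψ.comp (hu (φ n)).lip.continuous).aestronglyMeasurable)
        (by exact integrableOn_const (by simp [volume_cube]))
        (fun n => Eventually.of_forall fun x => hC _ ((hu (φ n)).range x))
        (Eventually.of_forall fun x => (hψ.tendsto _).comp (hlim x))
      simp only [fun n => (hu (φ n)).moment ψ hψ] at this
      exact tendsto_nhds_unique this tendsto_const_nhds
    · exact integral_gradNorm_le (fun n => (hu (φ n)).lip) hL
        (fun n x => abs_le.2 ⟨by linarith [((hu (φ n)).range x).1], ((hu (φ n)).range x).2⟩) hlim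
        fun n => (hu (φ n)).energy
  have hmax : ∀ g, Class T Q L f g → Φ g ≤ Φ h := by
    have hlimΦ : Tendsto (fun n => Φ (u (φ n))) atTop (𝓝 (Φ h)) :=
      tendsto_integral_of_dominated_convergence (μ := volume.restrict cube) (fun _ => B)
        (fun n => ((hu (φ n)).lip.continuous.mul hs.wc).aestronglyMeasurable)
        (by exact integrableOn_const (by simp [volume_cube]))
        (fun n => (ae_restrict_iff' measurableSet_cube).2 (Eventually.of_forall (hbd _ (hu (φ n)))))
        (Eventually.of_forall fun x => (hlim x).mul_const _)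
    have : Φ h = sSup V := tendsto_nhds_unique hlimΦ
      ((hv.comp hφ.tendsto_atTop).congr fun n => (hΦu (φ n)).symm)
    exact fun g hg => this ▸ le_csSup hba ⟨g, hg, rfl⟩
  refine ⟨h, hh, fun σ hσ x hx hlt => ?_⟩
  have hr := hs.refl σ hσ
  have hfix := hs.fix σ hσ h hh.inv
  set D : R3 → ℝ := fun y => (pol w σ h y - h y) * w y with hD
  have hPc := (lipschitzWith_pol hr hs.wc hfix hL).continuous
  have hDc : Continuous D := (hPc.sub hL.continuous).mul hs.wc
  have hDσ : Continuous fun y => D (σ y) := hDc.comp hr.lip.continuous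
  have hDinv : Inv T D := fun y k hk => by
    simp only [hD, hs.wT y k hk, hh.inv y k hk, (Class.pol_mem hs hσ hh).inv y k hk]
  have hsum : ∀ y, D y + D (σ y) = (pol w σ h y - h y) * (w y - w (σ y)) := fun y => by
    simp only [hD]; linear_combination w (σ y) * pol_add hr hfix y
  have hle : ∫ y in cube, D y ≤ 0 := by
    have := hmax _ (Class.pol_mem hs hσ hh)
    have e : ∫ y in cube, D y = Φ (pol w σ h) - Φ h := by
      rw [hΦ]; simp only
      rw [← integral_sub (continuousOn_cube_int (hPc.fun_mul hs.wc)) (continuousOn_cube_int (hL.continuous.fun_mul hs.wc))]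
      exact integral_congr_ae (Eventually.of_forall fun y => by simp [hD]; ring)
    linarith
  have hz : ∫ y in cube, (pol w σ h y - h y) * (w y - w (σ y)) = 0 := by
    refine le_antisymm ?_ (integral_nonneg fun y => pol_gain hfix y)
    simp only [← hsum]
    rw [integral_add (continuousOn_cube_int hDc) (continuousOn_cube_int hDσ),
      hs.int σ hσ D hDinv (continuousOn_cube_int hDc) (continuousOn_cube_int hDσ)]
    linarith
  have h0 := eq_zero_of_integral ((hPc.sub hL.continuous).mul (hs.wc.sub (hs.wc.comp hr.lip.continuous)))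
    (fun y => pol_gain hfix y) hz x hx
  have h1 : pol w σ h x = h x :=
    sub_eq_zero.1 ((mul_eq_zero.1 h0).resolve_right (sub_ne_zero.2 hlt.ne'))
  rw [show pol w σ h x = max (h x) (h (σ x)) from if_pos hlt.le] at h1
  exact max_eq_left_iff.1 h1

/-- Equal moments give equal volumes of the superlevel sets. -/
theorem levelVol_eq (hh : Continuous h) (hf : Continuous f)
    (hm : ∀ ψ : ℝ → ℝ, Continuous ψ → ∫ x in cube, ψ (h x) = ∫ x in cube, ψ (f x)) (t : ℝ) :
    levelVol h t = levelVol f t := by
  have key : ∀ g : R3 → ℝ, Continuous g →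
      Tendsto (fun n : ℕ => ∫ x in cube, min 1 (max 0 ((n : ℝ) * (g x - t)))) atTop (𝓝 (levelVol g t)) := by
    intro g hg
    have hms : MeasurableSet {x | t < g x} := measurableSet_lt measurable_const hg.measurable
    have e : levelVol g t = ∫ x in cube, {x | t < g x}.indicator (fun _ => (1 : ℝ)) x := by
      rw [setIntegral_indicator hms, setIntegral_const, smul_eq_mul, mul_one]; rfl
    rw [e]
    refine tendsto_integral_of_dominated_convergence (fun _ => 1)
      (fun n => (continuous_const.min (continuous_const.max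
        (continuous_const.mul (hg.sub continuous_const)))).aestronglyMeasurable)
      (by exact integrableOn_const (by simp [volume_cube]))
      (fun n => Eventually.of_forall fun x => ?_) (Eventually.of_forall fun x => ?_)
    · rw [Real.norm_eq_abs, abs_of_nonneg (le_min zero_le_one (le_max_left _ _))]
      exact min_le_left _ _
    · by_cases hx : t < g x
      · rw [indicator_of_mem (show x ∈ {x | t < g x} from hx)]
        refine tendsto_const_nhds.congr' ?_
        filter_upwards [(tendsto_natCast_atTop_atTop.atTop_mul_const (sub_pos.2 hx)).eventually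
          (eventually_ge_atTop (1 : ℝ))] with n hn
        rw [min_eq_left (hn.trans (le_max_right _ _))]
      · rw [indicator_of_notMem (show x ∉ {x | t < g x} from hx)]
        refine tendsto_const_nhds.congr fun n => ?_
        rw [max_eq_left (mul_nonpos_of_nonneg_of_nonpos (Nat.cast_nonneg _) (by linarith)),
          min_eq_right zero_le_one]
  refine tendsto_nhds_unique ((key h hh).congr fun n => ?_) (key f hf)
  exact hm (fun s => min 1 (max 0 ((n : ℝ) * (s - t)))) (by fun_prop)

end Vale.Agent.P232.Symm
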