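import Vale.Agent.P232.Symm.Lsc
import Vale.Agent.P232.Polar

/-! # P232: polarisation with respect to a weight and an involution -/

open MeasureTheory Filter Set
open scoped Topology NNReal

namespace Vale.Agent.P232.Symm

/-- A reflection: an involution compatible with the norm and with the length of gradients. -/
structure Refl (σ : R3 → R3) : Prop where
  inv : ∀ x, σ (σ x) = x
  lip : LipschitzWith 1 σ
  grad : ∀ (f : R3 → ℝ) (x : R3), gradNorm (fun y => f (σ y)) x = gradNorm f (σ x)

/-- `f` takes the same value at two points exchanged by `σ` with the same weight. -/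
def Fix (w : R3 → ℝ) (σ : R3 → R3) (f : R3 → ℝ) : Prop := ∀ x, w (σ x) = w x → f (σ x) = f x

/-- Polarisation: the larger value goes to the larger weight. -/
noncomputable def pol (w : R3 → ℝ) (σ : R3 → R3) (f : R3 → ℝ) (x : R3) : ℝ :=
  if w (σ x) ≤ w x then max (f x) (f (σ x)) else min (f x) (f (σ x))

variable {w : R3 → ℝ} {σ : R3 → R3} {f : R3 → ℝ} {L : ℝ≥0}

theorem pol_of_le (hfix : Fix w σ f) {x : R3} (h : w x ≤ w (σ x)) :
    pol w σ f x = min (f x) (f (σ x)) := by
  rw [pol]
  split_ifs with h'
  · rw [hfix x (le_antisymm h' h), max_self, min_self]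
  · rfl

theorem pol_add (hσ : Refl σ) (hfix : Fix w σ f) (x : R3) :
    pol w σ f x + pol w σ f (σ x) = f x + f (σ x) := by
  rcases le_total (w (σ x)) (w x) with h | h
  · rw [show pol w σ f x = max (f x) (f (σ x)) from if_pos h,
      pol_of_le hfix (by rwa [hσ.inv]), hσ.inv, min_comm, max_add_min]
  · rw [pol_of_le hfix h, show pol w σ f (σ x) = max (f (σ x)) (f (σ (σ x))) from if_pos (by rwa [hσ.inv]),
      hσ.inv, max_comm (f (σ x)), min_add_max]

theorem pol_comp (hσ : Refl σ) (hfix : Fix w σ f) (F : ℝ → ℝ) (x : R3) :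
    F (pol w σ f x) + F (pol w σ f (σ x)) = F (f x) + F (f (σ x)) := by
  have h := pol_add hσ hfix x
  have hc : pol w σ f x = f x ∨ pol w σ f x = f (σ x) := by
    unfold pol; split_ifs
    · exact max_choice _ _
    · exact min_choice _ _
  rcases hc with hc | hc <;> rw [hc] at h ⊢
  · rw [show pol w σ f (σ x) = f (σ x) by linarith]
  · rw [show pol w σ f (σ x) = f x by linarith, add_comm]

theorem pol_mem {s : Set ℝ} (h : ∀ x, f x ∈ s) (x : R3) : pol w σ f x ∈ s := by
  unfold pol; split_ifs
  · rcases max_choice (f x) (f (σ x)) with e | e <;> rw [e] <;> exact h _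
  · rcases min_choice (f x) (f (σ x)) with e | e <;> rw [e] <;> exact h _

/-- The polarisation correlates better with the weight. -/
theorem pol_gain (hfix : Fix w σ f) (x : R3) : 0 ≤ (pol w σ f x - f x) * (w x - w (σ x)) := by
  rcases le_total (w (σ x)) (w x) with h | h
  · rw [show pol w σ f x = max (f x) (f (σ x)) from if_pos h]
    exact mul_nonneg (sub_nonneg.2 (le_max_left _ _)) (sub_nonneg.2 h)
  · rw [pol_of_le hfix h]
    exact mul_nonneg_of_nonpos_of_nonpos (sub_nonpos.2 (min_le_left _ _)) (sub_nonpos.2 h)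

/-- Where two functions are glued along their coincidence set, some point of each segment across
the interface carries the common value. -/
theorem exists_interface (hσ : Refl σ) (hw : Continuous w) (hfix : Fix w σ f) {x y : R3}
    (hx : w (σ x) ≤ w x) (hy : w y ≤ w (σ y)) :
    ∃ z ∈ segment ℝ x y, max (f z) (f (σ z)) = min (f z) (f (σ z)) ∧ w (σ z) = w z := by
  set γ : ℝ → R3 := fun t => (1 - t) • x + t • y with hγ
  have hc : Continuous fun t => w (γ t) - w (σ (γ t)) := by
    have hγc : Continuous γ := by fun_prop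
    exact (hw.comp hγc).sub (hw.comp (hσ.lip.continuous.comp hγc))
  have h0 : w (γ 1) - w (σ (γ 1)) ≤ 0 := by simp [hγ, hy]
  have h1 : 0 ≤ w (γ 0) - w (σ (γ 0)) := by simp [hγ, hx]
  obtain ⟨t, ht, hzero⟩ := intermediate_value_Icc' zero_le_one hc.continuousOn ⟨h0, h1⟩
  have he : w (σ (γ t)) = w (γ t) := (sub_eq_zero.1 hzero).symm
  exact ⟨γ t, ⟨1 - t, t, by linarith [ht.2], ht.1, by ring, rfl⟩,
    by rw [hfix _ he, max_self, min_self], he⟩

theorem lipschitzWith_pol (hσ : Refl σ) (hw : Continuous w) (hfix : Fix w σ f)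
    (hf : LipschitzWith L f) : LipschitzWith L (pol w σ f) := by
  have hfσ : LipschitzWith L fun y => f (σ y) := by
    simpa [Function.comp_def] using hf.comp hσ.lip
  have hM : LipschitzWith L fun y => max (f y) (f (σ y)) := by simpa using hf.max hfσ
  have hm : LipschitzWith L fun y => min (f y) (f (σ y)) := by simpa using hf.min hfσ
  refine LipschitzWith.of_dist_le_mul fun x y => ?_
  have cross : ∀ x y, w (σ x) ≤ w x → w y ≤ w (σ y) →
      dist (max (f x) (f (σ x))) (min (f y) (f (σ y))) ≤ L * dist x y := by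
    intro x y hx hy
    obtain ⟨z, hz, he, -⟩ := exists_interface hσ hw hfix hx hy
    refine (dist_triangle _ (max (f z) (f (σ z))) _).trans ?_
    rw [← dist_add_dist_of_mem_segment hz, mul_add]
    refine add_le_add (hM.dist_le_mul x z) ?_
    rw [he]; exact hm.dist_le_mul z y
  rcases le_total (w (σ x)) (w x) with hx | hx <;> rcases le_total (w (σ y)) (w y) with hy | hy
  · rw [show pol w σ f x = _ from if_pos hx, show pol w σ f y = _ from if_pos hy]
    exact hM.dist_le_mul x y
  · rw [show pol w σ f x = _ from if_pos hx, pol_of_le hfix hy]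
    exact cross x y hx hy
  · rw [pol_of_le hfix hx, show pol w σ f y = _ from if_pos hy, dist_comm, dist_comm x]
    exact cross y x hy hx
  · rw [pol_of_le hfix hx, pol_of_le hfix hy]
    exact hm.dist_le_mul x y

theorem gradNorm_congr {g : R3 → ℝ} {x : R3} (h : fderiv ℝ f x = fderiv ℝ g x) :
    gradNorm f x = gradNorm g x := by
  simp only [gradNorm, pd, h]

/-- Polarisation preserves the lengths of the gradients, pairwise and almost everywhere. -/
theorem gradNorm_pol (hσ : Refl σ) (hw : Continuous w) (hfix : Fix w σ f) (hf : LipschitzWith L f) :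
    ∀ᵐ x : R3, gradNorm (pol w σ f) x + gradNorm (pol w σ f) (σ x) =
      gradNorm f x + gradNorm f (σ x) := by
  set v : R3 → ℝ := fun y => f (σ y)
  set P := pol w σ f with hP
  set Q : R3 → ℝ := fun y => P (σ y)
  have hPL := lipschitzWith_pol hσ hw hfix hf
  have hv : LipschitzWith L v := by simpa [Function.comp_def] using hf.comp hσ.lip
  have hQ : LipschitzWith L Q := by simpa [Function.comp_def] using hPL.comp hσ.lip
  have hM : LipschitzWith L fun y => max (f y) (v y) := by simpa using hf.max hv
  have hm : LipschitzWith L fun y => min (f y) (v y) := by simpa using hf.min hv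
  filter_upwards [hf.ae_differentiableAt, hv.ae_differentiableAt, hM.ae_differentiableAt,
    hm.ae_differentiableAt, hPL.ae_differentiableAt, hQ.ae_differentiableAt] with x du dv dM dm dP dQ
  have hQeq : ∀ y, Q y = f y + v y - P y := fun y => by
    simp only [Q, v, hP]; linarith [pol_add hσ hfix y]
  have hgrad : gradNorm (fun y => max (f y) (v y)) x + gradNorm (fun y => min (f y) (v y)) x =
      gradNorm f x + gradNorm v x := by
    rcases fderiv_max_min du dv dM dm with ⟨a, b⟩ | ⟨a, b⟩
    · rw [gradNorm_congr a, gradNorm_congr b]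
    · rw [gradNorm_congr a, gradNorm_congr b, add_comm]
  rw [← hσ.grad, ← hσ.grad]
  show gradNorm P x + gradNorm Q x = gradNorm f x + gradNorm v x
  rw [← hgrad]
  have hle : ∀ y, min (f y) (v y) ≤ P y ∧ P y ≤ max (f y) (v y) := fun y => by
    simp only [hP, pol]; split_ifs <;> simp [v]
  have hleQ : ∀ y, min (f y) (v y) ≤ Q y ∧ Q y ≤ max (f y) (v y) := fun y => by
    rw [hQeq]; constructor <;> linarith [(hle y).1, (hle y).2, min_add_max (f y) (v y)]
  have hcont : Continuous fun y => w y - w (σ y) := hw.sub (hw.comp hσ.lip.continuous)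
  rcases lt_trichotomy (w (σ x)) (w x) with h | h | h
  · have e : P =ᶠ[𝓝 x] fun y => max (f y) (v y) := by
      filter_upwards [hcont.continuousAt.eventually (lt_mem_nhds (sub_pos.2 h))] with y hy
      exact if_pos (sub_pos.1 hy).le
    have e' : Q =ᶠ[𝓝 x] fun y => min (f y) (v y) := by
      filter_upwards [e] with y hy
      rw [hQeq, hy]; linarith [min_add_max (f y) (v y)]
    rw [gradNorm_congr e.fderiv_eq, gradNorm_congr e'.fderiv_eq]
  · have hfv : f x = v x := (hfix x h).symm
    have hPx : P x = max (f x) (v x) := if_pos h.le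
    have a := fderiv_eq_of_le_of_eq dP dM (fun y => (hle y).2) hPx
    have b := fderiv_eq_of_le_of_eq dm dQ (fun y => (hleQ y).1)
      (by rw [hQeq, hPx, hfv]; simp)
    rw [gradNorm_congr a, gradNorm_congr b.symm]
  · have e : P =ᶠ[𝓝 x] fun y => min (f y) (v y) := by
      filter_upwards [hcont.continuousAt.eventually (gt_mem_nhds (sub_neg.2 h))] with y hy
      exact if_neg (not_le.2 (sub_neg.1 hy))
    have e' : Q =ᶠ[𝓝 x] fun y => max (f y) (v y) := by
      filter_upwards [e] with y hy
      rw [hQeq, hy]; linarith [min_add_max (f y) (v y)]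
    rw [gradNorm_congr e.fderiv_eq, gradNorm_congr e'.fderiv_eq, add_comm]

end Vale.Agent.P232.Symm
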